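import Vale.Agent.H22.P249Near

/-! Every `n` points of `L_p` embed in `ℓ_p^d` with any distortion `D > 1` and
`d` nearly linear in `n`, for all finite `p ≥ 1`. -/

open MeasureTheory Real Vale.Agent.H22.P249
open scoped ENNReal

universe u

theorem Vale.Agent.Results.P249.NearLinear.result (D : ℝ) (hD : 1 < D) :
    (∃ C : ℝ, 0 < C ∧
      ∀ (p : ℝ≥0∞) [Fact (1 ≤ p)], p ≠ ∞ → ∀ n k : ℕ, 2 ≤ n → 1 ≤ k →
        Reduces.{u} p n (dimLp.{u} p n D) D ∧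
        (dimLp.{u} p n D : ℝ) ≤
          C * ((2 * k - 1 : ℝ) ^ p.toReal * (n : ℝ) ^ (1 + 1 / (k : ℝ)) * log n)) ∧
    (∀ (p : ℝ≥0∞) [Fact (1 ≤ p)], p ≠ ∞ → ∃ C : ℝ, 0 < C ∧ ∀ n : ℕ, 2 ≤ n →
      (dimLp.{u} p n D : ℝ) ≤ C * (n * (log n) ^ (p.toReal + 1))) :=
  ⟨near_linear D hD, fun p _ hp => near_linear_log D hD p hp⟩
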