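import Vale.Agent.H22.P249Cor

/-! Dimension reduction in `L_p`, `1 < p < ∞`: for large distortion `D` every `n` points of `L_p`
embed in `ℓ_p^d` with `d` at most a small power of `n`; in particular `d_p(n, D) = o(n)`. -/

open MeasureTheory Real Filter Topology Vale.Agent.H22.P249
open scoped ENNReal

universe u

theorem Vale.Agent.Results.P249.SmallPower.result (p : ℝ≥0∞) [Fact (1 ≤ p)] (hp1 : 1 < p)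
    (hp : p ≠ ∞) :
    (∃ κ : ℝ, 0 < κ ∧ ∀ D : ℝ, 1 < D → ∃ C : ℝ, 0 < C ∧ ∀ n : ℕ, 2 ≤ n →
      Reduces.{u} p n (dimLp.{u} p n D) D ∧
      (dimLp.{u} p n D : ℝ) ≤ C * (n : ℝ) ^ (κ / √D)) ∧
    (∃ D₀ : ℝ, 1 < D₀ ∧ ∀ D : ℝ, D₀ ≤ D →
      Tendsto (fun n : ℕ => (dimLp.{u} p n D : ℝ) / n) atTop (𝓝 0)) ∧
    (∀ η : ℝ, 0 < η → ∃ D C : ℝ, 1 < D ∧ 0 < C ∧ ∀ n : ℕ, 2 ≤ n →
      (dimLp.{u} p n D : ℝ) ≤ C * (n : ℝ) ^ η) ∧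
    (∀ D : ℝ, 1 < D → ∃ C : ℝ, 0 < C ∧ ∀ n : ℕ, 2 ≤ n →
      (dimLp.{u} p n D : ℝ) ≤ C * (n * (log n) ^ (p.toReal + 1))) := by
  obtain ⟨κ, hκ, h⟩ := main_bound.{u} hp hp1
  exact ⟨⟨κ, hκ, h⟩, little_o hκ h, small_power h, fun D hD => near_linear_log D hD p hp⟩
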